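import Vale.Agent.P184.H159.Inv
import Vale.Agent.P184.H159.G4a

/-!
# Block G4: the inverse with a uniform majorant
-/

open scoped Matrix Matrix.Norms.L2Operator Kronecker ENNReal

namespace Vale.Agent.P184.H159

open Vale.Agent.P184.Un Vale.Agent.P184.H57 Vale.Agent.P184.H57.Ker

set_option linter.unusedSectionVars false

universe u

section

variable {G : Type u} [Group G] {x : G} {S : Finset G} {ε : ℝ} (D : FData G x S ε)
  (K : Cliff D.m D.C) (q : ℕ) [NeZero q]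

theorem li_ext {F F' : Li G (RR D K q)} (h : ∀ p ω, (F.1 p) ω = (F'.1 p) ω) : F = F' :=
  Subtype.ext (funext fun p => ContinuousMap.ext fun ω => h p ω)

theorem li_mul_apply (F F' : Li G (RR D K q)) (p : G) (ω : D.Ω) :
    ((F * F').1 p) ω = (F.1 p) ω * (F'.1 p) ω := rfl

theorem li_one_apply (p : G) (ω : D.Ω) : ((1 : Li G (RR D K q)).1 p) ω = 1 := rfl

/-- Constant fields. -/
noncomputable def cL (X : Matrix K.κ K.κ ℂ) : Li G (RR D K q) :=
  ⟨fun _ => ContinuousMap.const D.Ω (cX K q X), memℓp_infty ⟨‖ContinuousMap.const D.Ω (cX K q X)‖,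
    by rintro _ ⟨p, rfl⟩; exact le_rfl⟩⟩

theorem cL_apply (X : Matrix K.κ K.κ ℂ) (p : G) (ω : D.Ω) :
    ((cL D K q X).1 p) ω = cX K q X := rfl

theorem norm_cL (X : Matrix K.κ K.κ ℂ) (h : ‖cX K q X‖ ≤ 1) : ‖cL D K q X‖ ≤ 1 := by
  refine lp.norm_le_of_forall_le zero_le_one fun p => ?_
  exact (ContinuousMap.norm_le _ zero_le_one).2 fun ω => h

theorem fE_e (e : Mat G q) (he : InL1 e) (X : Matrix K.κ K.κ ℂ) (p p' : G) :
    (fE D K q e he X).e p p' = ContinuousMap.const D.Ω (cE e (p⁻¹ * p') ⊗ₖ X) := rfl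

theorem fE_cL (e : Mat G q) (he : InL1 e) (X : Matrix K.κ K.κ ℂ) :
    fE D K q e he 1 * diag (cL D K q X) = fE D K q e he X := by
  ext1 p p'
  rw [mul_diag_e, fE_e, fE_e]
  ext1 ω
  exact kron_cX K q _ X

theorem cL_fE (e : Mat G q) (he : InL1 e) (X : Matrix K.κ K.κ ℂ) :
    diag (cL D K q X) * fE D K q e he 1 = fE D K q e he X := by
  ext1 p p'
  rw [diag_mul_e, fE_e, fE_e]
  ext1 ω
  exact cX_kron K q _ X

/-- The norms of the coefficients. -/
noncomputable def bE (e : Mat G q) (g : G) : ℝ := ∑ i, ∑ j, ‖e i j g‖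

theorem maj_fE (e : Mat G q) (he : InL1 e) : Maj (fE D K q e he 1) (bE q e) := by
  refine maj_of_e_le fun p p' => ?_
  have h0 : 0 ≤ bE q e (p⁻¹ * p') :=
    Finset.sum_nonneg fun i _ => Finset.sum_nonneg fun j _ => norm_nonneg _
  rw [fE_e]
  exact (ContinuousMap.norm_le _ h0).2 fun ω => norm_kron_one (cE e (p⁻¹ * p'))

variable {P : Polynomial ℝ} {η : ℝ} (hP : PH P η (Fintype.card D.E))

include hP

theorem exists_Dv {s : G →₀ ℝ} (hs : Reg (1 / 4) s) : ∃ Dv : Li G (RR D K q), ‖Dv‖ ≤ 4 ∧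
    ∀ p ω, (Dv.1 p) ω = (((qf (PM D P s p ω))⁻¹ : ℝ) : ℂ) • (1 : MM K q) := by
  have hc : ∀ p, Continuous fun ω : D.Ω =>
      (((qf (PM D P s p ω))⁻¹ : ℝ) : ℂ) • (1 : MM K q) := fun p =>
    ((loc_Mk D s p).comp fun (v : ZMod D.m × D.C → ℝ) =>
      (((qf (fun k => P.eval (v k)))⁻¹ : ℝ) : ℂ) • (1 : MM K q)).continuous
  have hb : ∀ p, ‖(⟨_, hc p⟩ : RR D K q)‖ ≤ 4 := fun p => by
    refine (ContinuousMap.norm_le _ (by norm_num)).2 fun ω => ?_
    change ‖(((qf (PM D P s p ω))⁻¹ : ℝ) : ℂ) • (1 : MM K q)‖ ≤ 4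
    have h1 := (qf_bounds D hP hs p ω).2
    have h2 : ‖(1 : MM K q)‖ ≤ 1 := norm_proj Matrix.conjTranspose_one (one_mul 1)
    rw [norm_smul, Complex.norm_real, Real.norm_of_nonneg (inv_nonneg.2 (by linarith))]
    have h3 : (qf (PM D P s p ω))⁻¹ ≤ 4 := by
      rw [inv_le_comm₀ (by linarith) (by norm_num)]
      linarith
    exact (mul_le_mul h3 h2 (norm_nonneg _) (by norm_num)).trans (by norm_num)
  exact ⟨⟨fun p => ⟨_, hc p⟩, memℓp_infty ⟨4, by rintro _ ⟨p, rfl⟩; exact hb p⟩⟩,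
    lp.norm_le_of_forall_le (by norm_num) hb, fun p ω => rfl⟩

theorem rel_cc {s : G →₀ ℝ} (hs : Reg (1 / 4) s) (p : G) (ω : D.Ω) :
    cc K q (PM D P s p ω) * ((((qf (PM D P s p ω))⁻¹ : ℝ) : ℂ) • (1 : MM K q)) *
      cc K q (PM D P s p ω) = 1 ∧
    cc K q (PM D P s p ω) * cc K q (PM D P s p ω) *
      ((((qf (PM D P s p ω))⁻¹ : ℝ) : ℂ) • (1 : MM K q)) = 1 := by
  have h1 : qf (PM D P s p ω) ≠ 0 := by
    have := (qf_bounds D hP hs p ω).2
    intro h
    rw [h] at this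
    norm_num at this
  constructor
  · rw [Matrix.mul_smul, mul_one, Matrix.smul_mul, cc_sq, smul_smul, ← Complex.ofReal_mul,
      inv_mul_cancel₀ h1, Complex.ofReal_one, one_smul]
  · rw [Matrix.mul_smul, mul_one, cc_sq, smul_smul, ← Complex.ofReal_mul,
      inv_mul_cancel₀ h1, Complex.ofReal_one, one_smul]

omit hP in
open Classical in
theorem maj_comm (e : Mat G q) (he : InL1 e) (W : Li G (RR D K q)) (hW : ‖W‖ ≤ 2)
    (hcc : ∀ p ω, ∃ f, (W.1 p) ω = cc K q f) {δ : ℝ}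
    (hsl : ∀ g ∈ S, ∀ p, ‖W.1 (p * g) - W.1 p‖ ≤ δ) :
    Maj (fE D K q e he 1 * diag W - diag W * fE D K q e he 1)
      fun g => bE q e g * if g ∈ S then δ else 4 := by
  refine maj_of_e_le fun p p' => ?_
  have h1 : (fE D K q e he 1 * diag W - diag W * fE D K q e he 1).e p p' =
      (fE D K q e he 1).e p p' * (W.1 p' - W.1 p) := by
    rw [e_sub, mul_diag_e, diag_mul_e, mul_sub]
    congr 1
    rw [fE_e]
    ext1 ω
    obtain ⟨f, hf⟩ := hcc p ω
    change (W.1 p) ω * (cE e (p⁻¹ * p') ⊗ₖ (1 : Matrix K.κ K.κ ℂ)) =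
      (cE e (p⁻¹ * p') ⊗ₖ (1 : Matrix K.κ K.κ ℂ)) * (W.1 p) ω
    rw [hf, cc_kron]
  rw [h1]
  refine (norm_mul_le _ _).trans ?_
  have h2 := (maj_fE D K q e he).e_le p p'
  refine mul_le_mul h2 ?_ (norm_nonneg _) ((norm_nonneg _).trans h2)
  split_ifs with h
  · have h3 := hsl _ h p
    rwa [mul_inv_cancel_left] at h3
  · have h3 := norm_li_apply_le W p
    have h4 := norm_li_apply_le W p'
    refine (norm_sub_le _ _).trans ?_
    linarith

end

/-- The inverse kernels, block G4. -/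
theorem exists_V {G : Type u} [Group G] {q : ℕ} [NeZero q] (e : Mat G q) (he : IsIdem e) :
    ∃ (S : Finset G) (ε : ℝ), 0 < ε ∧ ∀ (x : G) (D : FData G x S ε) (K : Cliff D.m D.C),
      ∃ (P : Polynomial ℝ) (κ : ℝ) (V : (G →₀ ℝ) → Ker G (RR D K q)) (b : G → ℝ),
        0 < κ ∧ κ < 1 ∧ (∀ g, 0 ≤ b g) ∧ Summable b ∧
        (∀ s, ¬ Reg κ s → V s = 0) ∧
        (∀ s, Reg κ s → V s * (fE D K q e he.1 (P1 K) * diag (fW D K q P s) *
          fE D K q e he.1 (P0 K)) = fE D K q e he.1 (P0 K)) ∧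
        (∀ s, Reg κ s → (fE D K q e he.1 (P1 K) * diag (fW D K q P s) *
          fE D K q e he.1 (P0 K)) * V s = fE D K q e he.1 (P1 K)) ∧
        (∀ s, fE D K q e he.1 (P0 K) * V s = V s) ∧ (∀ s, V s * fE D K q e he.1 (P1 K) = V s) ∧
        Maj (fE D K q e he.1 (P0 K)) b ∧ Maj (fE D K q e he.1 (P1 K)) b ∧
        (∀ s, Reg κ s → Maj (fE D K q e he.1 (P1 K) * diag (fW D K q P s) *
          fE D K q e he.1 (P0 K)) b) ∧ ∀ s, Maj (V s) b := by
  classical
  have hβ : Sn (bE q e) := ⟨fun g => Finset.sum_nonneg fun i _ =>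
    Finset.sum_nonneg fun j _ => norm_nonneg _,
    summable_sum fun i _ => summable_sum fun j _ => he.1 i j⟩
  set N : ℝ := ∑' g, bE q e g with hN
  have hN0 : 0 ≤ N := tsum_nonneg hβ.nn
  set T : ℝ := N + 1 with hT
  have hT1 : 1 ≤ T := by linarith
  have hT0 : 0 < T := by linarith
  -- the finite set
  have hS : ∃ S : Finset G, |∑ g ∈ S, bE q e g - N| < 1 / (100 * T ^ 2) := by
    have h := hβ.sm.hasSum
    rw [HasSum, Metric.tendsto_nhds] at h
    obtain ⟨S, hS⟩ := (h (1 / (100 * T ^ 2)) (by positivity)).exists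
    exact ⟨S, by simpa [Real.dist_eq] using hS⟩
  obtain ⟨S, hS⟩ := hS
  set δ : ℝ := 1 / (100 * T ^ 3) with hδ
  have hδ0 : 0 < δ := by positivity
  have hδ1 : δ ≤ 1 / 100 := by
    rw [hδ]
    refine one_div_le_one_div_of_le (by norm_num) ?_
    have : (1 : ℝ) ≤ T ^ 3 := one_le_pow₀ hT1
    linarith
  set c : G → ℝ := fun g => bE q e g * if g ∈ S then δ else 4 with hcdef
  have hcnn : ∀ g, 0 ≤ c g := fun g => mul_nonneg (hβ.nn g) (by split_ifs <;> linarith)
  have hcle : ∀ g, c g ≤ 4 * bE q e g := fun g => by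
    have := hβ.nn g
    simp only [hcdef]
    split_ifs
    · nlinarith
    · linarith
  have hc : Sn c := ⟨hcnn, Summable.of_nonneg_of_le hcnn hcle (hβ.sm.mul_left 4)⟩
  have hcs : ∑' g, c g ≤ 4 / (100 * T ^ 2) + δ * N := by
    have e1 : c = fun g => 4 * bE q e g - if g ∈ S then (4 - δ) * bE q e g else 0 := by
      funext g
      simp only [hcdef]
      split_ifs <;> ring
    have e2 : Summable fun g => if g ∈ S then (4 - δ) * bE q e g else 0 :=
      summable_of_ne_finset_zero (s := S) fun g hg => if_neg hg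
    have e3 : ∑' g, (if g ∈ S then (4 - δ) * bE q e g else 0) =
        (4 - δ) * ∑ g ∈ S, bE q e g := by
      rw [tsum_eq_sum (s := S) fun g hg => if_neg hg, Finset.mul_sum]
      exact Finset.sum_congr rfl fun g hg => if_pos hg
    rw [e1, (hβ.sm.mul_left 4).tsum_sub e2, e3, tsum_mul_left, ← hN]
    have h1 := (abs_lt.1 hS).1
    have h2 : ∑ g ∈ S, bE q e g ≤ N := hβ.sm.sum_le_tsum S fun g _ => hβ.nn g
    have h3 : 0 ≤ ∑ g ∈ S, bE q e g := Finset.sum_nonneg fun g _ => hβ.nn g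
    have h4 : 4 / (100 * T ^ 2) = 4 * (1 / (100 * T ^ 2)) := by ring
    rw [h4]
    nlinarith
  have hsmall : N * 2 * 4 * (∑' g, c g) * N < 1 := by
    have h1 : N * 2 * 4 * (∑' g, c g) * N ≤ 8 * N ^ 2 * (4 / (100 * T ^ 2) + δ * N) := by
      have := mul_le_mul_of_nonneg_left hcs (by positivity : 0 ≤ 8 * N ^ 2)
      nlinarith
    refine h1.trans_lt ?_
    have h2 : N ≤ T := by linarith
    have h3 : N ^ 2 ≤ T ^ 2 := pow_le_pow_left₀ hN0 h2 2
    have h4 : N ^ 3 ≤ T ^ 3 := pow_le_pow_left₀ hN0 h2 3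
    have h5 : 8 * N ^ 2 * (4 / (100 * T ^ 2) + δ * N) =
        32 / 100 * (N ^ 2 / T ^ 2) + 8 / 100 * (N ^ 3 / T ^ 3) := by
      rw [hδ]
      field_simp
      ring
    rw [h5]
    have h6 : N ^ 2 / T ^ 2 ≤ 1 := (div_le_one (by positivity)).2 h3
    have h7 : N ^ 3 / T ^ 3 ≤ 1 := (div_le_one (by positivity)).2 h4
    linarith
  refine ⟨S, δ ^ 2 / 8, by positivity, fun x D K => ?_⟩
  -- the polynomial
  set n : ℕ := Fintype.card D.E with hn
  set η : ℝ := δ / (10 * (Real.sqrt (2 * (n : ℕ)) + 1)) with hη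
  have hr0 : 0 ≤ Real.sqrt (2 * (n : ℕ)) := Real.sqrt_nonneg _
  have hη0 : 0 < η := by positivity
  obtain ⟨P, hP0, hPa⟩ := exists_poly η hη0
  have hη1 : η * (10 * (Real.sqrt (2 * (n : ℕ)) + 1)) = δ := by
    rw [hη]
    field_simp
  have hη2 : η * Real.sqrt (2 * (n : ℕ)) ≤ δ / 10 := by nlinarith
  have hsq : Real.sqrt n ≤ Real.sqrt (2 * (n : ℕ)) := by
    refine Real.sqrt_le_sqrt ?_
    have : (0 : ℝ) ≤ n := Nat.cast_nonneg n
    linarith
  have hP : PH P η (Fintype.card D.E) := ⟨hη0.le, hP0, hPa, by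
    have h1 : η * Real.sqrt n ≤ η * Real.sqrt (2 * (n : ℕ)) :=
      mul_le_mul_of_nonneg_left hsq hη0.le
    rw [← hn]
    linarith⟩
  have hsl : Real.sqrt (2 * (δ ^ 2 / 8)) + 2 * η * Real.sqrt (2 * (Fintype.card D.E : ℕ)) ≤ δ := by
    have h1 : 2 * (δ ^ 2 / 8) = (δ / 2) ^ 2 := by ring
    rw [h1, Real.sqrt_sq (by positivity), ← hn]
    nlinarith
  obtain ⟨b, hb, hmain⟩ := exists_inv_rel (R := RR D K q) hβ hc (CW := 2) (CD := 4)
    zero_le_two (by norm_num) hsmall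
  have hE1 : fE D K q e he.1 1 * fE D K q e he.1 1 = fE D K q e he.1 1 := by
    rw [fE_mul D K q e he, mul_one]
  have main : ∀ s, Reg (1 / 4) s → ∃ V : Ker G (RR D K q),
      V * (fE D K q e he.1 (P1 K) * diag (fW D K q P s) * fE D K q e he.1 (P0 K)) =
        fE D K q e he.1 (P0 K) ∧
      (fE D K q e he.1 (P1 K) * diag (fW D K q P s) * fE D K q e he.1 (P0 K)) * V =
        fE D K q e he.1 (P1 K) ∧
      fE D K q e he.1 (P0 K) * V = V ∧ V * fE D K q e he.1 (P1 K) = V ∧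
      Maj (fE D K q e he.1 (P0 K)) b ∧ Maj (fE D K q e he.1 (P1 K)) b ∧
      Maj (fE D K q e he.1 (P1 K) * diag (fW D K q P s) * fE D K q e he.1 (P0 K)) b ∧
      Maj V b := by
    intro s hs
    obtain ⟨Dv, hDv, hDv'⟩ := exists_Dv D K q hP hs
    have h := hmain (fE D K q e he.1 1) (cL D K q (P0 K)) (cL D K q (P1 K)) (fW D K q P s) Dv
      hE1 (maj_fE D K q e he.1) (norm_cL D K q _ (norm_cX_P0 K q))
      (norm_cL D K q _ (norm_cX_P1 K q)) (norm_W D K q hP hs) hDv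
      (li_ext D K q fun p ω => by rw [li_mul_apply, cL_apply, cX_mul, P0_sq])
      (li_ext D K q fun p ω => by rw [li_mul_apply, cL_apply, cX_mul, P1_sq])
      (by rw [cL_fE, fE_cL]) (by rw [cL_fE, fE_cL])
      (li_ext D K q fun p ω => by
        rw [li_mul_apply, li_mul_apply, cL_apply, cL_apply, fW_apply, P1_cc])
      (li_ext D K q fun p ω => by
        rw [li_mul_apply, li_mul_apply, cL_apply, cL_apply, fW_apply, P0_cc])
      (li_ext D K q fun p ω => by
        rw [li_mul_apply, li_mul_apply, cL_apply, hDv', Matrix.mul_smul, Matrix.smul_mul, mul_one,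
          one_mul])
      (li_ext D K q fun p ω => by
        rw [li_mul_apply, li_mul_apply, cL_apply, hDv', Matrix.mul_smul, Matrix.smul_mul, mul_one,
          one_mul])
      (li_ext D K q fun p ω => by
        rw [li_mul_apply, li_mul_apply, hDv', fW_apply, li_one_apply]
        exact (rel_cc D K q hP hs p ω).1)
      (li_ext D K q fun p ω => by
        rw [li_mul_apply, li_mul_apply, hDv', fW_apply, li_one_apply]
        exact (rel_cc D K q hP hs p ω).2)
      (by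
        have h := maj_comm D K q e he.1 (fW D K q P s) (norm_W D K q hP hs)
          (fun p ω => ⟨_, fW_apply D K q P s p ω⟩) (δ := δ)
          (fun g hg p => (W_slow D K q hP hs g hg p).trans hsl)
        convert h)
    rwa [fE_cL, fE_cL] at h
  choose V hV using main
  have hreg : Reg (1 / 4) (Finsupp.single (1 : G) (1 : ℝ)) := by
    refine ⟨fun r => ?_, ?_⟩
    · rw [Finsupp.single_apply]
      split_ifs <;> norm_num
    · unfold mass
      rw [Finsupp.sum_single_index rfl]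
      norm_num
  refine ⟨P, 1 / 4, fun s => if h : Reg (1 / 4) s then V s h else 0, b, by norm_num, by norm_num,
    hb.nn, hb.sm, fun s hs => dif_neg hs, fun s hs => ?_, fun s hs => ?_, fun s => ?_,
    fun s => ?_, ?_, ?_, fun s hs => ?_, fun s => ?_⟩
  · simp only [dif_pos hs]
    exact (hV s hs).1
  · simp only [dif_pos hs]
    exact (hV s hs).2.1
  · by_cases hs : Reg (1 / 4) s
    · simp only [dif_pos hs]
      exact (hV s hs).2.2.1
    · simp only [dif_neg hs, mul_zero]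
  · by_cases hs : Reg (1 / 4) s
    · simp only [dif_pos hs]
      exact (hV s hs).2.2.2.1
    · simp only [dif_neg hs, zero_mul]
  · exact (hV _ hreg).2.2.2.2.1
  · exact (hV _ hreg).2.2.2.2.2.1
  · exact (hV s hs).2.2.2.2.2.2.1
  · by_cases hs : Reg (1 / 4) s
    · simp only [dif_pos hs]
      exact (hV s hs).2.2.2.2.2.2.2
    · simp only [dif_neg hs]
      exact maj_zero.mono hb.nn

end Vale.Agent.P184.H159
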