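import Vale.Agent.P184.R3.UMain
import Vale.Agent.P184.H57.F

/-!
# Block H3: limits of exact groups
-/

namespace Vale.Agent.P184.H57

universe u v

/-- The finite parts of the multiplication table of `G` lift to groups with property A. -/
def LimExact (G : Type u) [Group G] : Prop :=
  ∀ S : Finset G, ∃ (H : Type v) (_ : Group H), Un.Lifts H S ∧ Un.PropertyA H

/-- Block H3: the `ℓ¹`-Bass conjecture for limits of exact groups. -/
theorem l1Bass_of_limExact {G : Type u} [Group G] (h : LimExact.{u, v} G) : Un.L1Bass G :=
  Un.limBass fun S => by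
    obtain ⟨H, i, h1, h2⟩ := h S
    exact ⟨H, i, h1, l1Bass_of_propertyA h2⟩

end Vale.Agent.P184.H57
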