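import Vale.Agent.P184.H57.G

/-!
# Norms of the coefficient matrices
-/

open scoped Matrix Matrix.Norms.L2Operator Kronecker ENNReal

namespace Vale.Agent.P184.H159

open Vale.Agent.P184.Un Vale.Agent.P184.H57 Vale.Agent.P184.H57.Ker

section Norms

variable {n : Type*} [Fintype n] [DecidableEq n]

theorem norm_sq (A : Matrix n n ℂ) : ‖A‖ * ‖A‖ = ‖Aᴴ * A‖ :=
  (Matrix.l2_opNorm_conjTranspose_mul_self A).symm

/-- Self-adjoint idempotents. -/
theorem norm_proj {A : Matrix n n ℂ} (h : Aᴴ = A) (h2 : A * A = A) : ‖A‖ ≤ 1 := by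
  have h3 := norm_sq A
  rw [h, h2] at h3
  rcases eq_or_lt_of_le (norm_nonneg A) with h4 | h4
  · rw [← h4]
    exact zero_le_one
  · have := mul_right_cancel₀ h4.ne' (h3.trans (one_mul _).symm)
    exact this.le

theorem norm_le_one_of_proj {A B : Matrix n n ℂ} (h : Aᴴ * A = B) (h1 : Bᴴ = B)
    (h2 : B * B = B) : ‖A‖ ≤ 1 := by
  have h3 := norm_sq A
  rw [h] at h3
  have h4 := norm_proj h1 h2
  nlinarith [norm_nonneg A]

/-- Self-adjoint matrices with scalar square. -/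
theorem norm_of_sq {A : Matrix n n ℂ} (h : Aᴴ = A) {c : ℝ} (hc : 0 ≤ c)
    (h2 : A * A = (c : ℂ) • (1 : Matrix n n ℂ)) : ‖A‖ ≤ Real.sqrt c := by
  have h3 := norm_sq A
  rw [h, h2, norm_smul, Complex.norm_real, Real.norm_of_nonneg hc] at h3
  have h4 : ‖(1 : Matrix n n ℂ)‖ ≤ 1 := norm_proj (Matrix.conjTranspose_one) (one_mul 1)
  refine Real.le_sqrt_of_sq_le ?_
  rw [sq, h3]
  exact mul_le_of_le_one_right hc h4

end Norms

section Kron

variable {m n : Type*} [Fintype m] [DecidableEq m] [Fintype n] [DecidableEq n]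

theorem norm_single_kron (i j : m) :
    ‖(Matrix.single i j (1 : ℂ)) ⊗ₖ (1 : Matrix n n ℂ)‖ ≤ 1 := by
  refine norm_le_one_of_proj (B := (Matrix.single j j (1 : ℂ)) ⊗ₖ (1 : Matrix n n ℂ)) ?_ ?_ ?_
  · rw [Matrix.conjTranspose_kronecker, ← Matrix.mul_kronecker_mul, Matrix.conjTranspose_one,
      mul_one, Matrix.conjTranspose_single, star_one, Matrix.single_mul_single_same, mul_one]
  · rw [Matrix.conjTranspose_kronecker, Matrix.conjTranspose_one, Matrix.conjTranspose_single,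
      star_one]
  · rw [← Matrix.mul_kronecker_mul, mul_one, Matrix.single_mul_single_same, mul_one]

theorem norm_kron_one (A : Matrix m m ℂ) :
    ‖A ⊗ₖ (1 : Matrix n n ℂ)‖ ≤ ∑ i, ∑ j, ‖A i j‖ := by
  have h : A ⊗ₖ (1 : Matrix n n ℂ) =
      ∑ i, ∑ j, A i j • ((Matrix.single i j (1 : ℂ)) ⊗ₖ (1 : Matrix n n ℂ)) := by
    ext ⟨i, a⟩ ⟨j, b⟩
    simp only [Matrix.sum_apply, Matrix.smul_apply, Matrix.kroneckerMap_apply, smul_eq_mul,
      Matrix.single_apply]
    rw [Finset.sum_eq_single i, Finset.sum_eq_single j]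
    · simp
    · intro c _ hc
      simp [hc]
    · simp
    · intro c _ hc
      simp [hc]
    · simp
  rw [h]
  refine (norm_sum_le _ _).trans (Finset.sum_le_sum fun i _ => (norm_sum_le _ _).trans
    (Finset.sum_le_sum fun j _ => ?_))
  rw [norm_smul]
  exact mul_le_of_le_one_right (norm_nonneg _) (norm_single_kron i j)

end Kron

section Cliff

variable {m : ℕ} [NeZero m] {C : Type} [Fintype C] (K : Cliff m C) (q : ℕ)

/-- Constant matrices. -/
noncomputable def cX (X : Matrix K.κ K.κ ℂ) : MM K q := (1 : Matrix (Fin q) (Fin q) ℂ) ⊗ₖ X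

theorem cX_mul (X Y : Matrix K.κ K.κ ℂ) : cX K q X * cX K q Y = cX K q (X * Y) := by
  unfold cX
  rw [← Matrix.mul_kronecker_mul, one_mul]

theorem cX_star (X : Matrix K.κ K.κ ℂ) : (cX K q X)ᴴ = cX K q Xᴴ := by
  unfold cX
  rw [Matrix.conjTranspose_kronecker, Matrix.conjTranspose_one]

theorem cX_one : cX K q 1 = 1 := Matrix.one_kronecker_one

theorem cX_smul (a : ℂ) (X : Matrix K.κ K.κ ℂ) : cX K q (a • X) = a • cX K q X :=
  Matrix.kronecker_smul a 1 X

theorem cX_sum {ι : Type*} (s : Finset ι) (X : ι → Matrix K.κ K.κ ℂ) :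
    cX K q (∑ i ∈ s, X i) = ∑ i ∈ s, cX K q (X i) := by
  unfold cX
  ext ⟨i, a⟩ ⟨j, b⟩
  simp only [Matrix.kroneckerMap_apply, Matrix.sum_apply, Finset.mul_sum]

theorem cH_eq (k : ZMod m × C) : cH K q k = cX K q (K.ch k) := rfl

theorem P0_sq : P0 K * P0 K = P0 K := by
  unfold P0
  rw [Matrix.smul_mul, Matrix.mul_smul, smul_smul, add_mul, mul_add, mul_add, K.Γ_sq, mul_one,
    one_mul, mul_one]
  ext i j
  simp only [Matrix.smul_apply, Matrix.add_apply, smul_eq_mul]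
  ring

theorem P1_sq : P1 K * P1 K = P1 K := by
  unfold P1
  rw [Matrix.smul_mul, Matrix.mul_smul, smul_smul, sub_mul, mul_sub, mul_sub, K.Γ_sq, mul_one,
    one_mul, mul_one]
  ext i j
  simp only [Matrix.smul_apply, Matrix.sub_apply, smul_eq_mul]
  ring

theorem P0_star : (P0 K)ᴴ = P0 K := by
  unfold P0
  rw [Matrix.conjTranspose_smul, Matrix.conjTranspose_add, Matrix.conjTranspose_one, K.Γ_star]
  simp

theorem P1_star : (P1 K)ᴴ = P1 K := by
  unfold P1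
  rw [Matrix.conjTranspose_smul, Matrix.conjTranspose_sub, Matrix.conjTranspose_one, K.Γ_star]
  simp

theorem P1_ch (k : ZMod m × C) : P1 K * K.ch k = K.ch k * P0 K := by
  unfold P1 P0
  rw [Matrix.smul_mul, Matrix.mul_smul, sub_mul, mul_add, one_mul, mul_one, K.Γ_ch, sub_neg_eq_add]

theorem P0_ch (k : ZMod m × C) : P0 K * K.ch k = K.ch k * P1 K := by
  unfold P1 P0
  rw [Matrix.smul_mul, Matrix.mul_smul, add_mul, mul_sub, one_mul, mul_one, K.Γ_ch,
    ← sub_eq_add_neg]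

theorem norm_cX_P0 : ‖cX K q (P0 K)‖ ≤ 1 :=
  norm_proj (by rw [cX_star, P0_star]) (by rw [cX_mul, P0_sq])

theorem norm_cX_P1 : ‖cX K q (P1 K)‖ ≤ 1 :=
  norm_proj (by rw [cX_star, P1_star]) (by rw [cX_mul, P1_sq])

/-- The Clifford matrix of a function of the colours. -/
noncomputable def cc (f : ZMod m × C → ℝ) : MM K q := ∑ k, (f k : ℂ) • cH K q k

theorem cc_eq (f : ZMod m × C → ℝ) : cc K q f = cX K q (∑ k, (f k : ℂ) • K.ch k) := by
  unfold cc
  rw [cX_sum]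
  exact Finset.sum_congr rfl fun k _ => by rw [cX_smul, cH_eq]

theorem cc_star (f : ZMod m × C → ℝ) : (cc K q f)ᴴ = cc K q f := by
  rw [cc_eq, cX_star, Matrix.conjTranspose_sum]
  congr 1
  exact Finset.sum_congr rfl fun k _ => by
    rw [Matrix.conjTranspose_smul, K.ch_star, Complex.star_def, Complex.conj_ofReal]

theorem cc_sq (f : ZMod m × C → ℝ) : cc K q f * cc K q f = ((qf f : ℝ) : ℂ) • 1 := by
  rw [cc_eq, cX_mul, K.ch_sq, cX_smul, cX_one]

theorem norm_cc (f : ZMod m × C → ℝ) : ‖cc K q f‖ ≤ Real.sqrt (qf f) :=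
  norm_of_sq (cc_star K q f) (qf_nonneg f) (cc_sq K q f)

theorem norm_cc_le (f : ZMod m × C → ℝ) : ‖cc K q f‖ ≤ Real.sqrt (∑ k, f k ^ 2) :=
  (norm_cc K q f).trans (Real.sqrt_le_sqrt (qf_le f))

theorem cc_sub (f f' : ZMod m × C → ℝ) : cc K q f - cc K q f' = cc K q fun k => f k - f' k := by
  unfold cc
  rw [← Finset.sum_sub_distrib]
  exact Finset.sum_congr rfl fun k _ => by rw [← sub_smul, Complex.ofReal_sub]

theorem P1_cc (f : ZMod m × C → ℝ) : cX K q (P1 K) * cc K q f = cc K q f * cX K q (P0 K) := by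
  unfold cc
  rw [Finset.mul_sum, Finset.sum_mul]
  exact Finset.sum_congr rfl fun k _ => by
    rw [Matrix.mul_smul, Matrix.smul_mul, cH_eq, cX_mul, cX_mul, P1_ch]

theorem P0_cc (f : ZMod m × C → ℝ) : cX K q (P0 K) * cc K q f = cc K q f * cX K q (P1 K) := by
  unfold cc
  rw [Finset.mul_sum, Finset.sum_mul]
  exact Finset.sum_congr rfl fun k _ => by
    rw [Matrix.mul_smul, Matrix.smul_mul, cH_eq, cX_mul, cX_mul, P0_ch]

theorem kron_cX (A : Matrix (Fin q) (Fin q) ℂ) (X : Matrix K.κ K.κ ℂ) :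
    (A ⊗ₖ (1 : Matrix K.κ K.κ ℂ) : MM K q) * cX K q X = A ⊗ₖ X := by
  unfold cX
  rw [← Matrix.mul_kronecker_mul, mul_one, one_mul]

theorem cX_kron (A : Matrix (Fin q) (Fin q) ℂ) (X : Matrix K.κ K.κ ℂ) :
    cX K q X * (A ⊗ₖ (1 : Matrix K.κ K.κ ℂ) : MM K q) = A ⊗ₖ X := by
  unfold cX
  rw [← Matrix.mul_kronecker_mul, mul_one, one_mul]

theorem cc_kron (A : Matrix (Fin q) (Fin q) ℂ) (f : ZMod m × C → ℝ) :
    cc K q f * (A ⊗ₖ (1 : Matrix K.κ K.κ ℂ) : MM K q) =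
      (A ⊗ₖ (1 : Matrix K.κ K.κ ℂ) : MM K q) * cc K q f := by
  rw [cc_eq, kron_cX, cX_kron]

end Cliff

end Vale.Agent.P184.H159
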